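import Vale.Agent.P154.Expand

set_option maxRecDepth 100000

namespace Vale.Agent.P154.Data

open PolyR

/-- Table of the average of `A01` times powers of `3 u`. -/
def r01 : List Poly := [
[⟨256,0,0,1,0,54⟩,⟨65792,0,1,1,0,(-108)⟩,⟨16777472,1,0,1,0,(-54)⟩,⟨33554688,2,0,1,0,108⟩],
[⟨65537,0,1,0,1,(-324)⟩,⟨16777217,1,0,0,1,324⟩,⟨16842753,1,1,0,1,324⟩,⟨33554433,2,0,0,1,(-324)⟩],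
[⟨66048,0,1,2,0,972⟩,⟨16777728,1,0,2,0,972⟩,⟨16843264,1,1,2,0,(-2916)⟩,⟨33554944,2,0,2,0,(-1944)⟩,⟨50332160,3,0,2,0,2916⟩],
[⟨65793,0,1,1,1,2916⟩,⟨131329,0,2,1,1,(-5832)⟩,⟨16843009,1,1,1,1,(-11664)⟩,⟨33554689,2,0,1,1,8748⟩,⟨33620225,2,1,1,1,14580⟩,⟨50331905,3,0,1,1,(-8748)⟩],
[⟨131074,0,2,0,2,(-34992)⟩,⟨131840,0,2,3,0,17496⟩,⟨16842754,1,1,0,2,17496⟩,⟨16843520,1,1,3,0,26244⟩,⟨16908290,1,2,0,2,34992⟩,⟨16909056,1,2,3,0,(-17496)⟩,⟨33555200,2,0,3,0,26244⟩,⟨33619970,2,1,0,2,(-17496)⟩,⟨33620736,2,1,3,0,(-78732)⟩,⟨50331650,3,0,0,2,17496⟩,⟨50332416,3,0,3,0,(-69984)⟩,⟨67108866,4,0,0,2,(-17496)⟩,⟨67109632,4,0,3,0,96228⟩],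
[⟨131585,0,2,2,1,52488⟩,⟨16843265,1,1,2,1,131220⟩,⟨16908801,1,2,2,1,(-314928)⟩,⟨33620481,2,1,2,1,(-419904)⟩,⟨50332161,3,0,2,1,236196⟩,⟨50397697,3,1,2,1,551124⟩,⟨67109377,4,0,2,1,(-236196)⟩],
[⟨131330,0,2,1,2,314928⟩,⟨132096,0,2,4,0,(-157464)⟩,⟨196866,0,3,1,2,(-629856)⟩,⟨197632,0,3,4,0,314928⟩,⟨16908546,1,2,1,2,(-2204496)⟩,⟨16909312,1,2,4,0,1102248⟩,⟨33620226,2,1,1,2,944784⟩,⟨33620992,2,1,4,0,708588⟩,⟨33685762,2,2,1,2,2519424⟩,⟨33686528,2,2,4,0,(-1259712)⟩,⟨50331906,3,0,1,2,(-157464)⟩,⟨50332672,3,0,4,0,866052⟩,⟨50397442,3,1,1,2,(-629856)⟩,⟨50398208,3,1,4,0,(-2440692)⟩,⟨67109122,4,0,1,2,1102248⟩,⟨67109888,4,0,4,0,(-2519424)⟩,⟨83886338,5,0,1,2,(-1259712)⟩,⟨83887104,5,0,4,0,3385476⟩],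
[⟨196611,0,3,0,3,(-3779136)⟩,⟨197377,0,3,3,1,2834352⟩,⟨16908291,1,2,0,3,1889568⟩,⟨16909057,1,2,3,1,1889568⟩,⟨16973827,1,3,0,3,3779136⟩,⟨16974593,1,3,3,1,(-2834352)⟩,⟨33620737,2,1,3,1,4960116⟩,⟨33685507,2,2,0,3,(-1889568)⟩,⟨33686273,2,2,3,1,(-11809800)⟩,⟨50397187,3,1,0,3,2834352⟩,⟨50397953,3,1,3,1,(-17006112)⟩,⟨67108867,4,0,0,3,(-944784)⟩,⟨67109633,4,0,3,1,7322076⟩,⟨67174403,4,1,0,3,(-2834352)⟩,⟨67175169,4,1,3,1,21966228⟩,⟨83886083,5,0,0,3,944784⟩,⟨83886849,5,0,3,1,(-7322076)⟩],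
[⟨197122,0,3,2,2,5668704⟩,⟨197888,0,3,5,0,(-2834352)⟩,⟨16908802,1,2,2,2,22674816⟩,⟨16909568,1,2,5,0,(-11337408)⟩,⟨16974338,1,3,2,2,(-51018336)⟩,⟨16975104,1,3,5,0,25509168⟩,⟨33686018,2,2,2,2,(-104871024)⟩,⟨33686784,2,2,5,0,52435512⟩,⟨50397698,3,1,2,2,35429400⟩,⟨50398464,3,1,5,0,21966228⟩,⟨50463234,3,2,2,2,127545840⟩,⟨50464000,3,2,5,0,(-63772920)⟩,⟨67109378,4,0,2,2,(-11337408)⟩,⟨67110144,4,0,5,0,30469284⟩,⟨67174914,4,1,2,2,(-12754584)⟩,⟨67175680,4,1,5,0,(-82904796)⟩,⟨83886594,5,0,2,2,52435512⟩,⟨83887360,5,0,5,0,(-90699264)⟩,⟨100663810,6,0,2,2,(-63772920)⟩,⟨100664576,6,0,5,0,121168548⟩]]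

theorem c01 : chkRows r01 N01 = true := by decide +kernel

end Vale.Agent.P154.Data
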