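import Vale.Agent.P154.Expand

set_option maxRecDepth 100000

namespace Vale.Agent.P154.Data

open PolyR

/-- Table of the average of `A11` times powers of `3 u`. -/
def r11 : List Poly := [
[⟨65792,0,1,1,0,1296⟩,⟨16777472,1,0,1,0,1296⟩,⟨16843008,1,1,1,0,(-3888)⟩,⟨33554688,2,0,1,0,(-2592)⟩,⟨50331904,3,0,1,0,3888⟩],
[⟨65537,0,1,0,1,1944⟩,⟨16842753,1,1,0,1,(-9720)⟩,⟨33554433,2,0,0,1,7776⟩,⟨33619969,2,1,0,1,11664⟩,⟨50331649,3,0,0,1,(-11664)⟩],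
[⟨131584,0,2,2,0,11664⟩,⟨16843264,1,1,2,0,46656⟩,⟨33554944,2,0,2,0,29160⟩,⟨33620480,2,1,2,0,(-104976)⟩,⟨50332160,3,0,2,0,(-87480)⟩,⟨67109376,4,0,2,0,104976⟩],
[⟨131329,0,2,1,1,69984⟩,⟨16843009,1,1,1,1,122472⟩,⟨16908545,1,2,1,1,(-209952)⟩,⟨33620225,2,1,1,1,(-402408)⟩,⟨50331905,3,0,1,1,209952⟩,⟨50397441,3,1,1,1,524880⟩,⟨67109121,4,0,1,1,(-314928)⟩],
[⟨131074,0,2,0,2,209952⟩,⟨131840,0,2,3,0,(-104976)⟩,⟨16908290,1,2,0,2,(-1259712)⟩,⟨16909056,1,2,3,0,1049760⟩,⟨33619970,2,1,0,2,419904⟩,⟨33620736,2,1,3,0,1259712⟩,⟨33685506,2,2,0,2,1259712⟩,⟨33686272,2,2,3,0,(-629856)⟩,⟨50331650,3,0,0,2,(-104976)⟩,⟨50332416,3,0,3,0,892296⟩,⟨50397186,3,1,0,2,(-629856)⟩,⟨50397952,3,1,3,0,(-2834352)⟩,⟨67108866,4,0,0,2,734832⟩,⟨67109632,4,0,3,0,(-3096792)⟩,⟨83886082,5,0,0,2,(-629856)⟩,⟨83886848,5,0,3,0,3464208⟩],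
[⟨197121,0,3,2,1,629856⟩,⟨16908801,1,2,2,1,4408992⟩,⟨33620481,2,1,2,1,4881384⟩,⟨33686017,2,2,2,1,(-11337408)⟩,⟨50397697,3,1,2,1,(-15588936)⟩,⟨67109377,4,0,2,1,5668704⟩,⟨67174913,4,1,2,1,19840464⟩,⟨83886593,5,0,2,1,(-8503056)⟩],
[⟨196866,0,3,1,2,7558272⟩,⟨197632,0,3,4,0,(-3779136)⟩,⟨16908546,1,2,1,2,18895680⟩,⟨16909312,1,2,4,0,(-9447840)⟩,⟨16974082,1,3,1,2,(-22674816)⟩,⟨16974848,1,3,4,0,11337408⟩,⟨33685762,2,2,1,2,(-83140992)⟩,⟨33686528,2,2,4,0,55742256⟩,⟨50397442,3,1,1,2,18895680⟩,⟨50398208,3,1,4,0,37791360⟩,⟨50462978,3,2,1,2,90699264⟩,⟨50463744,3,2,4,0,(-45349632)⟩,⟨67109122,4,0,1,2,(-9447840)⟩,⟨67109888,4,0,4,0,30705480⟩,⟨67174658,4,1,1,2,(-22674816)⟩,⟨67175424,4,1,4,0,(-87864912)⟩,⟨83886338,5,0,1,2,47239200⟩,⟨83887104,5,0,4,0,(-111012120)⟩,⟨100663554,6,0,1,2,(-45349632)⟩,⟨100664320,6,0,4,0,121877136⟩],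
[⟨196611,0,3,0,3,22674816⟩,⟨197377,0,3,3,1,(-17006112)⟩,⟨16973827,1,3,0,3,(-136048896)⟩,⟨16974593,1,3,3,1,141717600⟩,⟨33685507,2,2,0,3,45349632⟩,⟨33686273,2,2,3,1,164392416⟩,⟨33751043,2,3,0,3,136048896⟩,⟨33751809,2,3,3,1,(-102036672)⟩,⟨50397187,3,1,0,3,(-17006112)⟩,⟨50397953,3,1,3,1,191318760⟩,⟨50462723,3,2,0,3,(-68024448)⟩,⟨50463489,3,2,3,1,(-425152800)⟩,⟨67174403,4,1,0,3,107705376⟩,⟨67175169,4,1,3,1,(-656152488)⟩,⟨83886083,5,0,0,3,(-22674816)⟩,⟨83886849,5,0,3,1,175729824⟩,⟨83951619,5,1,0,3,(-102036672)⟩,⟨83952385,5,1,3,1,790784208⟩,⟨100663299,6,0,0,3,34012224⟩,⟨100664065,6,0,3,1,(-263594736)⟩],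
[⟨262658,0,4,2,2,68024448⟩,⟨263424,0,4,5,0,(-34012224)⟩,⟨16974338,1,3,2,2,680244480⟩,⟨16975104,1,3,5,0,(-340122240)⟩,⟨33686018,2,2,2,2,1037372832⟩,⟨33686784,2,2,5,0,(-518686416)⟩,⟨33751554,2,3,2,2,(-1836660096)⟩,⟨33752320,2,3,5,0,918330048⟩,⟨50463234,3,2,2,2,(-4115479104)⟩,⟨50464000,3,2,5,0,2533910688⟩,⟨67174914,4,1,2,2,578207808⟩,⟨67175680,4,1,5,0,1258452288⟩,⟨67240450,4,2,2,2,4591650240⟩,⟨67241216,4,2,5,0,(-2295825120)⟩,⟨83886594,5,0,2,2,(-518686416)⟩,⟨83887360,5,0,5,0,1092642696⟩,⟨83952130,5,1,2,2,(-459165024)⟩,⟨83952896,5,1,5,0,(-2984572656)⟩,⟨100663810,6,0,2,2,2270315952⟩,⟨100664576,6,0,5,0,(-3992184792)⟩,⟨117441026,7,0,2,2,(-2295825120)⟩,⟨117441792,7,0,5,0,4362067728⟩]]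

theorem c11 : chkRows r11 N11 = true := by decide +kernel

end Vale.Agent.P154.Data
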